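import Crest.Statements.S0170
import Crest.Agent.S0170Aux.Defs
import Crest.Agent.S0170Aux.ODE
import Crest.Agent.S0170Aux.SFamBasic
import Crest.Agent.S0170Aux.Basic
import Crest.Agent.S0170Aux.Plan
import Crest.Agent.S0170Aux.Trans
import Crest.Agent.S0170Aux.Scale

set_option autoImplicit false
open scoped ContDiff
open Crest.AnalysisR.BoxFlow
open Crest Crest.AnalysisR

namespace Crest.Agent.S0170

open Crest.Agent.S0170Aux

/-- finitely many "eventually true for small positive ε" statements hold simultaneously -/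
theorem exists_pos_forall {ι : Type*} [Finite ι] (P : ι → ℚ → Prop)
    (h : ∀ i, ∃ e : ℚ, 0 < e ∧ ∀ ε, 0 < ε → ε ≤ e → P i ε) :
    ∃ e : ℚ, 0 < e ∧ ∀ i, ∀ ε, 0 < ε → ε ≤ e → P i ε := by
  classical
  cases nonempty_fintype ι
  choose e he hP using h
  rcases isEmpty_or_nonempty ι with hι | hι
  · exact ⟨1, one_pos, fun i => (hι.false i).elim⟩
  · refine ⟨Finset.univ.inf' Finset.univ_nonempty e, ?_, ?_⟩
    · rw [Finset.lt_inf'_iff]
      exact fun i _ => he i
    · intro i ε h0 h1
      exact hP i ε h0 (h1.trans (Finset.inf'_le _ (Finset.mem_univ i)))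

/-- disjoint closed rational boxes are separated in some coordinate -/
theorem sep_of_disjoint (c w c' w' : Fin 3 → ℚ) (hw : ∀ j, 0 < w j) (hw' : ∀ j, 0 < w' j)
    (hd : Disjoint (box c w) (box c' w')) : ∃ j, w j + w' j < |c j - c' j| := by
  by_contra hcon
  push Not at hcon
  have hx : (fun j => ((max (c j - w j) (c' j - w' j) : ℚ) : ℝ)) ∈ box c w ∩ box c' w' := by
    constructor
    · intro j
      have h1 := hcon j
      have h2 := hw j
      have h3 := hw' j
      rw [abs_le] at h1
      have : |max (c j - w j) (c' j - w' j) - c j| ≤ w j := by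
        rw [abs_le]
        constructor
        · have := le_max_left (c j - w j) (c' j - w' j)
          linarith
        · have : max (c j - w j) (c' j - w' j) ≤ c j + w j := max_le (by linarith) (by linarith)
          linarith
      show |((max (c j - w j) (c' j - w' j) : ℚ) : ℝ) - (c j : ℝ)| ≤ (w j : ℝ)
      exact_mod_cast this
    · intro j
      have h1 := hcon j
      have h2 := hw j
      have h3 := hw' j
      rw [abs_le] at h1
      have : |max (c j - w j) (c' j - w' j) - c' j| ≤ w' j := by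
        rw [abs_le]
        constructor
        · have := le_max_right (c j - w j) (c' j - w' j)
          linarith
        · have : max (c j - w j) (c' j - w' j) ≤ c' j + w' j := max_le (by linarith) (by linarith)
          linarith
      show |((max (c j - w j) (c' j - w' j) : ℚ) : ℝ) - (c' j : ℝ)| ≤ (w' j : ℝ)
      exact_mod_cast this
  exact (Set.disjoint_iff.mp hd) hx

/-- a pairwise disjoint family of boxes stays separated after a small dilation of the half-widths -/
theorem exists_enlarge {n : ℕ} (a h : Fin n → Fin 3 → ℚ) (hh : ∀ i j, 0 < h i j)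
    (ha : Pairwise fun i i' => Disjoint (box (a i) (h i)) (box (a i') (h i'))) :
    ∃ e : ℚ, 0 < e ∧ ∀ ε, 0 < ε → ε ≤ e → PSep (fun i j => (1 + ε) * h i j) a := by
  have key := exists_pos_forall (ι := Fin n × Fin n)
    (fun p ε => p.1 ≠ p.2 → ∃ j, SepAt (fun i j => (1 + ε) * h i j) a p.1 p.2 j) ?_
  · obtain ⟨e, he, hP⟩ := key
    exact ⟨e, he, fun ε h0 h1 i i' hii => hP (i, i') ε h0 h1 hii⟩
  · rintro ⟨i, i'⟩
    by_cases hii : i = i'
    · exact ⟨1, one_pos, fun ε _ _ hne => (hne hii).elim⟩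
    · obtain ⟨j, hj⟩ := sep_of_disjoint _ _ _ _ (hh i) (hh i') (ha hii)
      have hs : 0 < h i j + h i' j := add_pos (hh i j) (hh i' j)
      refine ⟨(|a i j - a i' j| - (h i j + h i' j)) / (2 * (h i j + h i' j)), by
        apply div_pos <;> linarith, fun ε h0 h1 _ => ⟨j, ?_⟩⟩
      unfold SepAt
      rw [le_div_iff₀ (by linarith)] at h1
      simp only
      nlinarith

theorem result
    (n : ℕ) (a b h k : Fin n → Fin 3 → ℚ)
    (hh : ∀ i j, 0 < h i j) (hk : ∀ i j, 0 < k i j)
    (ha : Pairwise fun i i' => Disjoint (box (a i) (h i)) (box (a i') (h i')))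
    (hb : Pairwise fun i i' => Disjoint (box (b i) (k i)) (box (b i') (k i')))
    (hvol : ∀ i, ∏ j : Fin 3, k i j / h i j = 1) :
    ∃ (U : Field) (Φ : ℝ → (Fin 3 → ℝ) → (Fin 3 → ℝ)),
      ContDiff ℝ ∞ U ∧ HasCompactSupport U ∧ Effective U ∧
      (∀ p : ℝ × (Fin 3 → ℝ), p.1 ∉ Set.Icc (1 / 4 : ℝ) (3 / 4) → U p = 0) ∧
      (∀ p : ℝ × (Fin 3 → ℝ), spaceDiv U p = 0) ∧ IsFlow U Φ ∧
      ∀ i : Fin n, ∃ O : Set (Fin 3 → ℝ), IsOpen O ∧ box (a i) (h i) ⊆ O ∧
        ∀ x ∈ O, Φ 1 x = fun j => (b i j : ℝ) + ((k i j / h i j : ℚ) : ℝ) * (x j - (a i j : ℝ)) := by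
  -- enlarge the boxes
  obtain ⟨e1, he1, hE1⟩ := exists_enlarge a h hh ha
  obtain ⟨e2, he2, hE2⟩ := exists_enlarge b k hk hb
  set ε : ℚ := min e1 e2 with hε
  have hε0 : 0 < ε := lt_min he1 he2
  set h' : Fin n → Fin 3 → ℚ := fun i j => (1 + ε) * h i j with hh'
  set k' : Fin n → Fin 3 → ℚ := fun i j => (1 + ε) * k i j with hk'
  have hh'0 : ∀ i j, 0 < h' i j := fun i j => mul_pos (by linarith) (hh i j)
  have hk'0 : ∀ i j, 0 < k' i j := fun i j => mul_pos (by linarith) (hk i j)
  have hsa : PSep h' a := hE1 ε hε0 (min_le_left _ _)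
  have hsb : PSep k' b := hE2 ε hε0 (min_le_right _ _)
  have hratio : ∀ i j, k' i j / h' i j = k i j / h i j := by
    intro i j
    have h1 : (1 + ε) ≠ 0 := by linarith
    simp only [hh', hk']
    rw [mul_div_mul_left _ _ h1]
  have hvol' : ∀ i, ∏ j : Fin 3, k' i j / h' i j = 1 := by
    intro i
    simp only [hratio]
    exact hvol i
  -- the three phases
  obtain ⟨L1, hL1⟩ := connected_std h' a hh'0 hsa
  obtain ⟨L2, hL2⟩ := connected_std k' b hk'0 hsb
  obtain ⟨L3, hL3⟩ := realizable_scale h' k' hh'0 hk'0 hvol'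
  set L : ℚ := max L1 (max L2 L3) with hL
  have R1 := realizable_of_connected h' a (stdCfg n L) hh'0 (hL1 L (le_max_left _ _))
  have R2 := hL3 L ((le_max_right _ _).trans (le_max_right _ _))
  have R3 := realizable_of_connected k' (stdCfg n L) b hk'0
    (connected_symm (hL2 L ((le_max_left _ _).trans (le_max_right _ _))))
  have M1 : ∀ i, Set.MapsTo (fun x : E3 => x + (ratPoint (stdCfg n L i) - ratPoint (a i)))
      (box (a i) (h' i)) (box (stdCfg n L i) (h' i)) := by
    intro i x hx j
    have := hx j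
    simp only [Pi.add_apply, Pi.sub_apply, ratPoint]
    convert this using 2
    ring
  have R12 := R1.comp M1 R2
  have M2 : ∀ i, Set.MapsTo
      ((fun (x : E3) j => (stdCfg n L i j : ℝ) +
          ((k' i j / h' i j : ℚ) : ℝ) * (x j - (stdCfg n L i j : ℝ))) ∘
        (fun x : E3 => x + (ratPoint (stdCfg n L i) - ratPoint (a i))))
      (box (a i) (h' i)) (box (stdCfg n L i) (k' i)) := by
    intro i x hx j
    have h1 := M1 i hx j
    have h2 : (0 : ℝ) < (h' i j : ℝ) := by exact_mod_cast hh'0 i j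
    have h3 : (0 : ℝ) < (k' i j : ℝ) := by exact_mod_cast hk'0 i j
    simp only [Function.comp]
    rw [add_sub_cancel_left, abs_mul]
    push_cast
    rw [abs_of_pos (div_pos h3 h2), div_mul_eq_mul_div, div_le_iff₀ h2]
    exact mul_le_mul_of_nonneg_left h1 h3.le
  have R123 := R12.comp M2 R3
  obtain ⟨U, hU, hM⟩ := R123 (1 / 4) (3 / 4) (by norm_num)
  obtain ⟨Φ, hΦ⟩ := exists_isFlow U hU.smooth hU.compact
  obtain ⟨G, hG, hUG⟩ := hU.rep
  refine ⟨U, Φ, hU.smooth, hU.compact, effective_of_sfam U G hG hUG, ?_, hU.div, hΦ, ?_⟩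
  · intro p hp
    apply hU.time
    rw [Set.mem_Icc, not_and_or, not_le, not_le] at hp
    rcases hp with hp | hp
    · left
      push_cast
      exact hp.le
    · right
      push_cast
      exact hp.le
  · intro i
    refine ⟨{x | ∀ j, |x j - (a i j : ℝ)| < (h' i j : ℝ)}, ?_, ?_, ?_⟩
    · rw [Set.ofPred_forall]
      apply isOpen_iInter_of_finite
      intro j
      exact isOpen_lt (by fun_prop) continuous_const
    · intro x hx j
      have h1 := hx j
      have h2 : (h i j : ℝ) < (h' i j : ℝ) := by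
        have : h i j < h' i j := by
          simp only [hh']
          nlinarith [hh i j]
        exact_mod_cast this
      exact lt_of_le_of_lt h1 h2
    · intro x hx
      have hxb : x ∈ box (a i) (h' i) := fun j => (hx j).le
      obtain ⟨γ, hγ0, hγ1, hγ⟩ := hM i x hxb
      have h0 : γ 0 = x := hγ0 0 (by push_cast; norm_num)
      rw [isFlow_unique U hU.smooth hU.compact Φ hΦ x γ h0 hγ 1, hγ1 1 (by push_cast; norm_num)]
      funext j
      simp only [Function.comp, Pi.add_apply, Pi.sub_apply, ratPoint, hratio]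
      ring

end Crest.Agent.S0170
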