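import Crest.Statements.S0359
import Crest.Agent.S0359Aux.Core

set_option autoImplicit false
open MeasureTheory
open scoped ENNReal
open Crest Crest.GeometryTopology

namespace Crest.Agent.S0359

/-- Fix an exponent 1 < p < ∞ with p ≠ 2 and n ≥ 9. If d is a dimension such that every n distinct points of any real L^p space can be mapped to the d-dimensional real ℓ^p space with all pairwise distances multiplied by one common factor s > 0 (an isometric embedding up to scaling), then ⌊(n − 1)/4⌋² ≤ d. -/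
theorem result
    (p : ℝ≥0∞) [Fact (1 ≤ p)] (hp1 : 1 < p) (hptop : p ≠ ⊤) (hp2 : p ≠ 2)
    (n : ℕ) (hn : 9 ≤ n) (d : ℕ)
    (hd : ∀ (α : Type) [MeasurableSpace α] (μ : Measure α) (x : Fin n → Lp ℝ p μ),
      Function.Injective x →
      ∃ (y : Fin n → PiLp p (fun _ : Fin d => ℝ)) (s : ℝ), 0 < s ∧
        ∀ i j, ‖y i - y j‖ = s * ‖x i - x j‖) :
    ((n - 1) / 4) ^ 2 ≤ d := by
  classical
  have hP1 : 1 < p.toReal := by
    have := (ENNReal.toReal_lt_toReal ENNReal.one_ne_top hptop).2 hp1
    simpa using this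
  have hP0 : 0 < p.toReal := by linarith
  have hP2 : p.toReal ≠ 2 := by
    intro h
    apply hp2
    have := ENNReal.ofReal_toReal hptop
    rw [h] at this
    rw [← this]
    simp
  obtain ⟨k, hkdef⟩ : ∃ k, k = (n - 1) / 4 := ⟨_, rfl⟩
  rw [← hkdef]
  have hk : 2 ≤ k := by omega
  have hkn : 4 * k + 1 ≤ n := by omega
  obtain ⟨m, hm⟩ : ∃ m, n = 4 * k + 1 + m := ⟨n - (4 * k + 1), by omega⟩
  have hcard : Fintype.card (Fin n)
      = Fintype.card (Option (Bool × Bool × Fin k) ⊕ Fin m) := by
    simp [Fintype.card_option, Fintype.card_prod]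
    omega
  let σ : Fin n ≃ Option (Bool × Bool × Fin k) ⊕ Fin m := Fintype.equivOfCardEq hcard
  let x : Fin n → Lp ℝ p (Measure.count : Measure (Fin k × Fin k)) := fun i =>
    (MemLp.of_discrete : MemLp (S0359Aux.G k m (σ i)) p Measure.count).toLp _
  have hx : ∀ i j, ‖x i - x j‖ ^ p.toReal
      = ∑ z, |S0359Aux.G k m (σ i) z - S0359Aux.G k m (σ j) z| ^ p.toReal := by
    intro i j
    have h1 : x i - x j = (MemLp.of_discrete :
        MemLp (S0359Aux.G k m (σ i) - S0359Aux.G k m (σ j)) p Measure.count).toLp _ :=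
      (MemLp.toLp_sub _ _).symm
    rw [h1, S0359Aux.lp_norm_rpow p hP0 hptop]
    rfl
  have hinj : Function.Injective x := by
    intro i j hij
    have h0 := hx i j
    rw [hij, sub_self, norm_zero, Real.zero_rpow hP0.ne'] at h0
    have h1 := (Finset.sum_eq_zero_iff_of_nonneg
      (fun z _ => Real.rpow_nonneg (abs_nonneg _) _)).1 h0.symm
    apply σ.injective
    apply S0359Aux.G_inj hk
    funext z
    have hz := h1 z (Finset.mem_univ z)
    have h2 := (Real.rpow_eq_zero (abs_nonneg _) hP0.ne').1 hz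
    linarith [abs_eq_zero.1 h2]
  obtain ⟨y, s, hs, hy⟩ := hd (Fin k × Fin k) Measure.count x hinj
  refine S0359Aux.core p.toReal hP1 hP2 k m d
    (fun w i => (y (σ.symm w) - y (σ.symm (Sum.inl none))) i) (s ^ p.toReal)
    (Real.rpow_pos_of_pos hs _) (by intro i; simp) ?_
  intro w w'
  have h1 : ∀ i, (y (σ.symm w) - y (σ.symm (Sum.inl none))) i
      - (y (σ.symm w') - y (σ.symm (Sum.inl none))) i = (y (σ.symm w) - y (σ.symm w')) i := by
    intro i
    simp
  simp only [h1]
  rw [← S0359Aux.pi_norm_rpow p hP0, hy, Real.mul_rpow hs.le (norm_nonneg _), hx]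
  simp

end Crest.Agent.S0359
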