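import Crest.Statements.S0505
import Crest.Agent.S0505Aux.Arith90
import Crest.Agent.S0505Aux.Core56

set_option autoImplicit false
universe u
open Crest Crest.LogicCS

namespace Crest.Agent.S0505

/-- For every field K and every n ≥ 2 there is a syntactically homogeneous depth-five sum-product circuit over K in the n³ matrix-entry variables (shared gates, unrestricted fan-in and bottom support) whose output is the top-left entry of the ordered product of the n variable matrices of order n and whose number of vertices, leaves included, is at most 2n³ + r·n² + r·n^(t+1) + n^(r−1) + 1 with t = ⌈√n⌉, r = ⌈n/t⌉, and also at most n^(√n + 4). Layers are indexed by initial segments of ℕ. -/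
theorem result (K : Type u) [Field K] (n : ℕ)
    (hn : 2 ≤ n) :
    ∃ (l b p s r : ℕ)
      (C : Crest.ArithCircuit.SPSPS K (Fin n × Fin n × Fin n) (Fin l) (Fin b) (Fin p) (Fin s) (Fin r)),
      C.IsHomogeneous ∧ C.output = Crest.ArithCircuit.imm K n ∧
        C.size ≤ 2 * n ^ 3 + ⌈(n : ℝ) / ⌈Real.sqrt n⌉₊⌉₊ * n ^ 2 +
          ⌈(n : ℝ) / ⌈Real.sqrt n⌉₊⌉₊ * n ^ (⌈Real.sqrt n⌉₊ + 1) +
          n ^ (⌈(n : ℝ) / ⌈Real.sqrt n⌉₊⌉₊ - 1) + 1 ∧
        (C.size : ℝ) ≤ (n : ℝ) ^ (Real.sqrt n + 4) := by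
  have hn1 : 1 ≤ n := by omega
  have ht : 1 ≤ ⌈Real.sqrt n⌉₊ := Crest.Agent.S0505Aux.ceil_sqrt_pos n hn1
  have hr : 1 ≤ ⌈(n : ℝ) / ⌈Real.sqrt n⌉₊⌉₊ := Crest.Agent.S0505Aux.ceil_div_pos n hn1
  have hrt : n ≤ ⌈(n : ℝ) / ⌈Real.sqrt n⌉₊⌉₊ * ⌈Real.sqrt n⌉₊ :=
    Crest.Agent.S0505Aux.le_ceil_div_mul n hn1
  have hbound := Crest.Agent.S0505Aux.size_bound n hn
  generalize ⌈(n : ℝ) / ⌈Real.sqrt n⌉₊⌉₊ = r at hr hrt hbound ⊢
  generalize ⌈Real.sqrt n⌉₊ = t at ht hrt hbound ⊢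
  obtain ⟨T, rfl⟩ : ∃ T, t = T + 1 := ⟨t - 1, by omega⟩
  obtain ⟨Q, rfl⟩ : ∃ Q, r = Q + 1 := ⟨r - 1, by omega⟩
  obtain ⟨l, b, p, s, r, C, h1, h2, h3⟩ := Crest.Agent.S0505Aux.Core56.main K n hn1 T Q hrt
  have h4 : C.size ≤ 2 * n ^ 3 + (Q + 1) * n ^ 2 + (Q + 1) * n ^ (T + 1 + 1) +
      n ^ (Q + 1 - 1) + 1 := by
    rw [h3, Nat.add_sub_cancel]
  exact ⟨l, b, p, s, r, C, h1, h2, h4, le_trans (by exact_mod_cast h4) hbound⟩

end Crest.Agent.S0505
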